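import Vale.Agent.N369.Mono
import Vale.Agent.P369.H124.Top4

/-!
P369 (helper48): damping `ρ ↦ q^N ρ q^N / Tr`, which commutes with the beam splitter, and the
comparison of entropies before and after damping.
-/

namespace Vale.Agent.N369

open scoped InnerProductSpace ComplexOrder
open Filter Topology
open Vale.Agent.P369 (Conf ampn)
open Vale.Agent.P369.Sys
open Vale.Agent.P369Y
open Vale.Agent.P369A (Ct)
open Vale.Agent.P369T (tb mem_tb sum_tb tendsto_tb)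
open Vale.Agent.P369Top

noncomputable section

variable {n : ℕ} {H K : Type} [NormedAddCommGroup H] [InnerProductSpace ℂ H] [CompleteSpace H]
  [NormedAddCommGroup K] [InnerProductSpace ℂ K] [CompleteSpace K]

/-- total photon number -/
def sz (k : Conf n) : ℕ := ∑ j, k j

theorem sz_add (k l : Conf n) : sz (k + l) = sz k + sz l := by
  unfold sz
  simp only [Pi.add_apply, Finset.sum_add_distrib]

/-- diagonal matrix element -/
def dg (e : Conf n → H) (T : H →L[ℂ] H) (k : Conf n) : ℝ := (⟪e k, T (e k)⟫_ℂ).re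

/-- partial sum of the entropy plus the trace -/
def ps (e : Conf n → H) (T : H →L[ℂ] H) (M : ℕ) : ℝ :=
  ∑ k ∈ tb n M, dg e (P369.negMulLogOp T) k + ∑ k ∈ tb n M, dg e T k

/-- comparison on the number states with at most `M` photons -/
theorem ps_compare {e : Conf n → H} (he : IsNumberBasis e) {C Y : H →L[ℂ] H}
    (hC : IsState e C) (hY : Y.IsPositive) (M : ℕ) (γ : Conf n → ℝ)
    (hγ : ∀ k, sz k ≤ M → γ k ^ 2 ≤ 1) {t : ℝ} (ht0 : 0 ≤ t) (ht1 : t ≤ 1)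
    (hdom : ∀ c : Ct n M → ℂ, t * (⟪∑ i, c i • e i.1, Y (∑ i, c i • e i.1)⟫_ℂ).re ≤
      (⟪∑ i, c i • ((γ i.1 : ℂ) • e i.1), C (∑ i, c i • ((γ i.1 : ℂ) • e i.1))⟫_ℂ).re) :
    t * ps e Y M ≤ ∑ k ∈ tb n M, dg e (P369.negMulLogOp C) k + 1 := by
  have hq : ∀ (T : H →L[ℂ] H) (i : Ct n M),
      (⟪(γ i.1 : ℂ) • e i.1, T ((γ i.1 : ℂ) • e i.1)⟫_ℂ).re = γ i.1 ^ 2 * dg e T i.1 := by
    intro T i
    rw [map_smul, inner_smul_left, inner_smul_right, Complex.conj_ofReal, ← mul_assoc,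
      ← Complex.ofReal_mul, Complex.re_ofReal_mul, sq]
    rfl
  have hle : ∀ (T : H →L[ℂ] H), (∀ k, 0 ≤ dg e T k) →
      ∑ i : Ct n M, (⟪(γ i.1 : ℂ) • e i.1, T ((γ i.1 : ℂ) • e i.1)⟫_ℂ).re ≤
        ∑ k ∈ tb n M, dg e T k := by
    intro T hT
    rw [← sum_tb]
    refine Finset.sum_le_sum fun i _ => ?_
    rw [hq]
    exact mul_le_of_le_one_left (hT _) (hγ _ i.2)
  have h1 : ∑ k ∈ tb n M, dg e C k ≤ 1 :=
    sum_le_hasSum _ (fun k _ => P369V.g3_nonneg hC k) (P369V.g3_hasSum hC)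
  have h := ent_compare he.1 he.2 ((ContinuousLinearMap.nonneg_iff_isPositive C).2 hC.1)
    (P369V.g3_hasSum hC) (e := fun i : Ct n M => e i.1) (he.1.comp _ Subtype.val_injective)
    (fun i => (γ i.1 : ℂ) • e i.1) ((ContinuousLinearMap.nonneg_iff_isPositive Y).2 hY) ht0 ht1
    hdom ((hle C fun k => P369V.g3_nonneg hC k).trans h1)
  have h2 := hle (P369.negMulLogOp C) fun k => P369V.g3_term_nonneg he hC k
  unfold ps
  rw [← sum_tb, ← sum_tb M (fun k => dg e Y k)]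
  exact h.trans (by unfold P369.negMulLogOp at h2; unfold P369.negMulLogOp; linarith)

/-- the normalisation `Tr q^N ρ q^N` -/
def nrm (e : Conf n → H) (T : H →L[ℂ] H) (q : ℝ) : ℝ := ∑' k, (q ^ sz k) ^ 2 * dg e T k

theorem pow_sq_le {q : ℝ} (h0 : 0 ≤ q) (h1 : q ≤ 1) (m : ℕ) : (q ^ m) ^ 2 ≤ 1 :=
  pow_le_one₀ (pow_nonneg h0 m) (pow_le_one₀ h0 h1)

theorem nrm_summable {e : Conf n → H} {T : H →L[ℂ] H} (hT : IsState e T)
    {q : ℝ} (h0 : 0 ≤ q) (h1 : q ≤ 1) : Summable fun k => (q ^ sz k) ^ 2 * dg e T k :=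
  Summable.of_nonneg_of_le (fun k => mul_nonneg (sq_nonneg _) (P369V.g3_nonneg hT k))
    (fun k => mul_le_of_le_one_left (P369V.g3_nonneg hT k) (pow_sq_le h0 h1 _))
    (P369V.g3_hasSum hT).summable

theorem nrm_le_one {e : Conf n → H} {T : H →L[ℂ] H} (hT : IsState e T)
    {q : ℝ} (h0 : 0 ≤ q) (h1 : q ≤ 1) : nrm e T q ≤ 1 :=
  hasSum_le (fun k => mul_le_of_le_one_left (P369V.g3_nonneg hT k) (pow_sq_le h0 h1 _))
    (nrm_summable hT h0 h1).hasSum (P369V.g3_hasSum hT)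

theorem nrm_pos {e : Conf n → H} {T : H →L[ℂ] H} (hT : IsState e T)
    {q : ℝ} (h0 : 0 < q) (h1 : q ≤ 1) : 0 < nrm e T q := by
  have hex : ∃ k, 0 < dg e T k := by
    by_contra hc
    push Not at hc
    have h := (P369V.g3_hasSum hT).nonpos hc
    linarith
  obtain ⟨k, hk⟩ := hex
  exact (nrm_summable hT h0.le h1).tsum_pos
    (fun k => mul_nonneg (sq_nonneg _) (P369V.g3_nonneg hT k)) k (by positivity)

theorem nrm_tendsto {e : Conf n → H} {T : H →L[ℂ] H} (hT : IsState e T) {q : ℕ → ℝ}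
    (h0 : ∀ N, 0 ≤ q N) (h1 : ∀ N, q N ≤ 1) (hq : Tendsto q atTop (𝓝 1)) :
    Tendsto (fun N => nrm e T (q N)) atTop (𝓝 1) := by
  have h := tendsto_tsum_of_dominated_convergence (𝓕 := atTop)
    (f := fun N k => (q N ^ sz k) ^ 2 * dg e T k) (g := fun k => dg e T k)
    (bound := fun k => dg e T k) (P369V.g3_hasSum hT).summable (fun k => by
      have := ((hq.pow (sz k)).pow 2).mul_const (dg e T k)
      simpa using this) (Eventually.of_forall fun N k => by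
      have h5 : 0 ≤ dg e T k := P369V.g3_nonneg hT k
      rw [Real.norm_of_nonneg (mul_nonneg (sq_nonneg _) h5)]
      exact mul_le_of_le_one_left h5 (pow_sq_le (h0 N) (h1 N) _))
  have e1 : ∑' k, dg e T k = 1 := (P369V.g3_hasSum hT).tsum_eq
  rw [e1] at h
  exact h

theorem mul_pow_le {r : ℝ} (h0 : 0 ≤ r) (h1 : r < 1) (m : ℕ) : (m : ℝ) * r ^ m ≤ (1 - r)⁻¹ := by
  have h2 : (m : ℝ) * r ^ m ≤ ∑ i ∈ Finset.range m, r ^ i := by
    have h3 : ∑ _i ∈ Finset.range m, r ^ m ≤ ∑ i ∈ Finset.range m, r ^ i :=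
      Finset.sum_le_sum fun i hi => pow_le_pow_of_le_one h0 h1.le (Finset.mem_range.1 hi).le
    rwa [Finset.sum_const, Finset.card_range, nsmul_eq_mul] at h3
  exact h2.trans (sum_le_hasSum _ (fun i _ => pow_nonneg h0 i) (hasSum_geometric_of_lt_one h0 h1))

/-- the damped state -/
theorem exists_damp {e : Conf n → H} (he : IsNumberBasis e) {T : H →L[ℂ] H} (hT : IsState e T)
    {q : ℝ} (h0 : 0 < q) (h1 : q < 1) :
    ∃ T' : H →L[ℂ] H, IsState e T' ∧ FiniteEnergy e T' ∧ ∀ k k',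
      ⟪e k, T' (e k')⟫_ℂ =
        (((nrm e T q)⁻¹ * (q ^ sz k * q ^ sz k') : ℝ) : ℂ) * ⟪e k, T (e k')⟫_ℂ := by
  obtain ⟨S, hS⟩ := Ptr.pos_factor hT.1
  have ht := nrm_pos hT h0 h1.le
  obtain ⟨c, hc⟩ : ∃ c : ℝ, c = Real.sqrt (nrm e T q)⁻¹ := ⟨_, rfl⟩
  have hcc : c * c = (nrm e T q)⁻¹ := by
    rw [hc]; exact Real.mul_self_sqrt (inv_nonneg.2 ht.le)
  obtain ⟨w, hw⟩ : ∃ w : Conf n → H, ∀ k, w k = ((c * q ^ sz k : ℝ) : ℂ) • S (e k) :=
    ⟨_, fun _ => rfl⟩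
  have hww : ∀ k k', ⟪w k, w k'⟫_ℂ =
      (((nrm e T q)⁻¹ * (q ^ sz k * q ^ sz k') : ℝ) : ℂ) * ⟪e k, T (e k')⟫_ℂ := by
    intro k k'
    rw [hw, hw, inner_smul_left, inner_smul_right, Complex.conj_ofReal, ← hS, ← hcc]
    push_cast
    ring
  have hn : ∀ k, ‖w k‖ ^ 2 = (nrm e T q)⁻¹ * ((q ^ sz k) ^ 2 * dg e T k) := by
    intro k
    rw [← Ptr.re_inner_self, hww, Complex.re_ofReal_mul]
    unfold dg
    ring
  have hs : HasSum (fun k => ‖w k‖ ^ 2) 1 := by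
    have h := (nrm_summable hT h0.le h1.le).hasSum.mul_left (nrm e T q)⁻¹
    have e1 : (nrm e T q)⁻¹ * ∑' k, (q ^ sz k) ^ 2 * dg e T k = 1 := inv_mul_cancel₀ ht.ne'
    rw [e1] at h
    simpa only [hn] using h
  obtain ⟨Y, hY⟩ := exists_hs he hs.summable
  have hel : ∀ k k', ⟪e k, ((ContinuousLinearMap.adjoint Y) ∘L Y) (e k')⟫_ℂ = ⟪w k, w k'⟫_ℂ := by
    intro k k'
    rw [ContinuousLinearMap.comp_apply, ContinuousLinearMap.adjoint_inner_right, hY, hY]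
  refine ⟨(ContinuousLinearMap.adjoint Y) ∘L Y, ⟨isPositive_of_gram he hel, ?_⟩, ?_,
    fun k k' => (hel k k').trans (hww k k')⟩
  · have h2 := Complex.hasSum_ofReal.2 hs
    rw [Complex.ofReal_one] at h2
    refine h2.congr_fun fun k => ?_
    rw [hel, inner_self_eq_norm_sq_to_K]
    push_cast
    rfl
  · have hq2 : q ^ 2 < 1 := pow_lt_one₀ h0.le h1 two_ne_zero
    refine Summable.of_nonneg_of_le (fun k => ?_) (fun k => ?_)
      (((P369V.g3_hasSum hT).summable.mul_left (1 - q ^ 2)⁻¹).mul_left (nrm e T q)⁻¹)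
    · rw [hel, Ptr.re_inner_self]
      positivity
    · rw [hel, Ptr.re_inner_self, hn]
      have h3 := mul_pow_le (sq_nonneg q) hq2 (sz k)
      have h4 : (∑ j, (k j : ℝ)) = (sz k : ℝ) := by unfold sz; push_cast; rfl
      have h5 : 0 ≤ dg e T k := P369V.g3_nonneg hT k
      rw [h4, ← pow_mul, mul_comm (sz k) 2, pow_mul]
      have h6 := mul_le_mul_of_nonneg_left (mul_le_mul_of_nonneg_right h3 h5)
        (inv_nonneg.2 ht.le)
      refine le_trans (le_of_eq ?_) h6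
      ring

/-- lower semicontinuity along the damping -/
theorem damp_lower {e : Conf n → H} (he : IsNumberBasis e) {T T' : H →L[ℂ] H} (hT : IsState e T)
    {q : ℝ} (h0 : 0 < q) (h1 : q < 1) (hT' : IsState e T') (eT' : FiniteEnergy e T')
    (hel : ∀ k k', ⟪e k, T' (e k')⟫_ℂ =
      (((nrm e T q)⁻¹ * (q ^ sz k * q ^ sz k') : ℝ) : ℂ) * ⟪e k, T (e k')⟫_ℂ) (M : ℕ) :
    (q ^ M) ^ 2 * ps e T M ≤ entropy e T' + 1 := by
  have ht := nrm_pos hT h0 h1.le
  have ht1 := nrm_le_one hT h0.le h1.le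
  obtain ⟨c, hc⟩ : ∃ c : ℝ, c = Real.sqrt (nrm e T q) := ⟨_, rfl⟩
  have hcc : c * c = nrm e T q := by
    rw [hc]; exact Real.mul_self_sqrt ht.le
  have h := ps_compare he hT' hT.1 M (fun k => c * q ^ M / q ^ sz k) (fun k hk => ?_)
    (sq_nonneg (q ^ M)) (pow_sq_le h0.le h1.le M) (fun a => le_of_eq ?_)
  · refine h.trans ?_
    have := sum_le_hasSum (tb n M) (fun k _ => P369V.g3_term_nonneg he hT' k)
      (P369V.g3_summable he hT' eT').hasSum
    unfold dg entropy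
    linarith
  · have h2 : q ^ M ≤ q ^ sz k := pow_le_pow_of_le_one h0.le h1.le hk
    have h3 : q ^ M / q ^ sz k ≤ 1 := (div_le_one (by positivity)).2 h2
    rw [mul_div_assoc, mul_pow, sq c, hcc]
    exact mul_le_one₀ ht1 (sq_nonneg _) (pow_le_one₀ (by positivity) h3)
  · rw [← Complex.re_ofReal_mul]
    congr 1
    simp only [map_sum, map_smul, inner_sum, sum_inner, inner_smul_left, inner_smul_right, hel,
      Finset.mul_sum, Complex.conj_ofReal]
    refine Finset.sum_congr rfl fun i _ => Finset.sum_congr rfl fun j _ => ?_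
    rw [← hcc]
    have hc0 : (c : ℂ) ≠ 0 := by
      have : c ≠ 0 := fun h => by rw [h, mul_zero] at hcc; exact ht.ne hcc
      exact_mod_cast this
    have hq0 : (q : ℂ) ≠ 0 := by exact_mod_cast h0.ne'
    push_cast
    field_simp

omit [CompleteSpace H] in
theorem hasSum_comb {κ : Type} [Fintype κ] {v : κ → H} {z : κ → Conf n → K} {T : H →L[ℂ] H}
    (h : ∀ i j, HasSum (fun l => ⟪z i l, z j l⟫_ℂ) ⟪v i, T (v j)⟫_ℂ) (c : κ → ℂ) :
    HasSum (fun l => ‖∑ i, c i • z i l‖ ^ 2) (⟪∑ i, c i • v i, T (∑ i, c i • v i)⟫_ℂ).re := by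
  have h1 : HasSum (fun l => ⟪∑ i, c i • z i l, ∑ i, c i • z i l⟫_ℂ)
      ⟪∑ i, c i • v i, T (∑ i, c i • v i)⟫_ℂ := by
    simp only [map_sum, map_smul, inner_sum, sum_inner, inner_smul_left, inner_smul_right]
    exact hasSum_sum fun j _ => (hasSum_sum fun i _ => (h i j).mul_left _).mul_left _
  refine (Complex.hasSum_re h1).congr_fun fun l => ?_
  exact (Ptr.re_inner_self _).symm

/-- the output for the damped inputs is dominated by the output -/
theorem damp_upper {η : ℝ} (h0 : 0 ≤ η) (h1 : η ≤ 1) {e : Conf n → H} {f : Conf n → Conf n → K}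
    (he : IsNumberBasis e) (hf : IsNumberBasis fun x : Conf n × Conf n => f x.1 x.2)
    {A B C A' B' C' : H →L[ℂ] H} (hA : IsState e A) (hB : IsState e B) (hA' : IsState e A')
    (hB' : IsState e B') (hO : IsOutput η e f A B C) (hO' : IsOutput η e f A' B' C')
    {q a b : ℝ} (q0 : 0 ≤ q) (q1 : q ≤ 1) (a0 : 0 < a) (a1 : a ≤ 1) (b0 : 0 < b) (b1 : b ≤ 1)
    (eA : ∀ k k', ⟪e k, A' (e k')⟫_ℂ =
      ((a⁻¹ * (q ^ sz k * q ^ sz k') : ℝ) : ℂ) * ⟪e k, A (e k')⟫_ℂ)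
    (eB : ∀ k k', ⟪e k, B' (e k')⟫_ℂ =
      ((b⁻¹ * (q ^ sz k * q ^ sz k') : ℝ) : ℂ) * ⟪e k, B (e k')⟫_ℂ) (M : ℕ) :
    a * b * ps e C' M ≤ ∑ k ∈ tb n M, dg e (P369.negMulLogOp C) k + 1 := by
  obtain ⟨w, hw, -, C₁, -, hC, hz, hu⟩ := output_all h0 h1 he hf hA hB
  obtain rfl := hu C hO
  obtain ⟨w', hw', -, C₂, -, hC', hz', hu'⟩ := output_all h0 h1 he hf hA' hB'
  obtain rfl := hu' C' hO'
  have hzz : ∀ x x' : Conf n × Conf n, ⟪zv η w' x, zv η w' x'⟫_ℂ =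
      (((a * b)⁻¹ * (q ^ (sz x.1 + sz x.2) * q ^ (sz x'.1 + sz x'.2)) : ℝ) : ℂ) *
        ⟪zv η w x, zv η w x'⟫_ℂ := by
    intro x x'
    rw [zv_inner, zv_inner, Finset.mul_sum]
    refine Finset.sum_congr rfl fun y hy => ?_
    rw [Finset.mul_sum]
    refine Finset.sum_congr rfl fun y' hy' => ?_
    rw [hw, hw', eA, eB, ← sz_add x.1, ← sz_add x'.1, ← mem_lev.1 hy, ← mem_lev.1 hy', sz_add,
      sz_add]
    push_cast
    ring
  refine ps_compare he hC hC'.1 M (fun k => q ^ sz k) (fun k _ => pow_sq_le q0 q1 _)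
    (mul_pos a0 b0).le (mul_le_one₀ a1 b0.le b1) fun c => ?_
  have s1 := (hasSum_comb (v := fun i : Ct n M => e i.1) (z := fun i l => zv η w' (i.1, l))
    (fun i j => hz' i.1 j.1) c).mul_left (a * b)
  have s2 := hasSum_comb (v := fun i : Ct n M => ((q ^ sz i.1 : ℝ) : ℂ) • e i.1)
    (z := fun i l => ((q ^ sz i.1 : ℝ) : ℂ) • zv η w (i.1, l)) (T := C) (fun i j => by
      simp only [map_smul, inner_smul_left, inner_smul_right]
      exact ((hz i.1 j.1).mul_left _).mul_left _) c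
  refine hasSum_le (fun l => ?_) s1 s2
  have e1 : a * b * ‖∑ i : Ct n M, c i • zv η w' (i.1, l)‖ ^ 2 = (q ^ sz l) ^ 2 *
      ‖∑ i : Ct n M, c i • ((q ^ sz i.1 : ℝ) : ℂ) • zv η w (i.1, l)‖ ^ 2 := by
    rw [← Ptr.re_inner_self, ← Ptr.re_inner_self, ← Complex.re_ofReal_mul,
      ← Complex.re_ofReal_mul]
    congr 1
    simp only [inner_sum, sum_inner, inner_smul_left, inner_smul_right, hzz, Finset.mul_sum,
      Complex.conj_ofReal]
    refine Finset.sum_congr rfl fun i _ => Finset.sum_congr rfl fun j _ => ?_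
    have ha : (a : ℂ) ≠ 0 := by exact_mod_cast a0.ne'
    have hb : (b : ℂ) ≠ 0 := by exact_mod_cast b0.ne'
    push_cast
    field_simp
    ring
  rw [e1]
  exact mul_le_of_le_one_left (sq_nonneg _) (pow_sq_le q0 q1 _)

end

end Vale.Agent.N369
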