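import Vale.Agent.P369L32.Defs

/-!
# P369: output state and entropy photon number with values in `[0, ∞]`
-/

namespace Vale.Agent.N369

open scoped ENNReal
open Vale.Agent.P369L

noncomputable section

variable {H K : Type} [NormedAddCommGroup H] [InnerProductSpace ℂ H] [CompleteSpace H]
  [NormedAddCommGroup K] [InnerProductSpace ℂ K] [CompleteSpace K] {n : ℕ}

/-- `ρC` is the partial trace over the `b`-modes of `U (ρA ⊗ ρB) U†`, with `U` the beam splitter of
transmissivity `η`. -/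
def Out (e : (Fin n → ℕ) → H) (f : (Fin (n + n) → ℕ) → K) (η : ℝ) (ρA ρB ρC : H →L[ℂ] H) : Prop :=
  ∃ (U : K ≃ₗᵢ[ℂ] K) (σ : K →L[ℂ] K), IsBeamSplitter f η U ∧ IsProduct e f ρA ρB σ ∧
    IsPartialTrace e f (evolve U σ) ρC

/-- `g⁻¹(s/n)` for an entropy `s ∈ [0, ∞]`, equal to `∞` for `s = ∞`. -/
def photons (n : ℕ) (s : ℝ≥0∞) : ℝ≥0∞ :=
  if s = ⊤ then ⊤ else ENNReal.ofReal (Function.invFunOn g (Set.Ici 0) (s.toReal / n))

end

end Vale.Agent.N369
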