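import Vale.Agent.N369.Damp
import Vale.Agent.N369.Defs
import Vale.Agent.P369L32.Main

/-!
P369 (helper48): the linearised entropy photon-number inequality for all pairs of states, and the
inequality for ensembles.
-/

namespace Vale.Agent.N369

open scoped InnerProductSpace ComplexOrder ENNReal
open Filter Topology MeasureTheory
open Vale.Agent.P369 (Conf)
open Vale.Agent.P369.Sys
open Vale.Agent.P369Y
open Vale.Agent.P369T (tb mem_tb sum_tb tendsto_tb)
open Vale.Agent.P369Top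

noncomputable section

variable {n : ℕ} {H K : Type} [NormedAddCommGroup H] [InnerProductSpace ℂ H] [CompleteSpace H]
  [NormedAddCommGroup K] [InnerProductSpace ℂ K] [CompleteSpace K]

theorem entropy_tendsto {e : Conf n → H} (he : IsNumberBasis e) {T : H →L[ℂ] H}
    (hT : IsState e T) :
    Tendsto (fun M => ENNReal.ofReal (∑ k ∈ tb n M, dg e (P369.negMulLogOp T) k)) atTop
      (𝓝 (P369L.entropy e T)) := by
  have h : HasSum (fun k => ENNReal.ofReal (dg e (P369.negMulLogOp T) k)) (P369L.entropy e T) := by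
    unfold P369L.entropy P369L.tr
    rw [P369L.negMulLogOp_eq]
    exact ENNReal.summable.hasSum
  refine ((show Tendsto (fun s : Finset (Conf n) =>
    ∑ k ∈ s, ENNReal.ofReal (dg e (P369.negMulLogOp T) k)) atTop (𝓝 _) from h).comp
      (tendsto_tb n)).congr fun M => ?_
  exact (ENNReal.ofReal_sum_of_nonneg fun k _ => P369V.g3_term_nonneg he hT k).symm

theorem sum_le_entropy {e : Conf n → H} (he : IsNumberBasis e) {T : H →L[ℂ] H}
    (hT : IsState e T) (hne : P369L.entropy e T ≠ ⊤) (M : ℕ) :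
    ∑ k ∈ tb n M, dg e (P369.negMulLogOp T) k ≤ (P369L.entropy e T).toReal := by
  rw [← ENNReal.ofReal_le_iff_le_toReal hne]
  unfold dg
  rw [ENNReal.ofReal_sum_of_nonneg fun k _ => P369V.g3_term_nonneg he hT k]
  unfold P369L.entropy P369L.tr
  rw [P369L.negMulLogOp_eq]
  exact ENNReal.sum_le_tsum _

theorem trace_tb {e : Conf n → H} {T : H →L[ℂ] H} (hT : IsState e T) :
    Tendsto (fun M => ∑ k ∈ tb n M, dg e T k) atTop (𝓝 1) :=
  (show Tendsto (fun s : Finset (Conf n) => ∑ k ∈ s, dg e T k) atTop (𝓝 1) from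
    P369V.g3_hasSum hT).comp (tendsto_tb n)

/-- numbers below the entropy are eventually below the partial sums -/
theorem low_of_lt {e : Conf n → H} (he : IsNumberBasis e) {T : H →L[ℂ] H} (hT : IsState e T)
    {x : ℝ} (hx : P369L.entropy e T = ⊤ ∨ x < (P369L.entropy e T).toReal) :
    ∃ M, x + 1 < ps e T M := by
  obtain ⟨y, hxy, hy⟩ : ∃ y, x < y ∧ (y ≤ 0 ∨ ENNReal.ofReal y < P369L.entropy e T) := by
    by_cases h : P369L.entropy e T = ⊤
    · exact ⟨x + 1, by linarith, Or.inr (h ▸ ENNReal.ofReal_lt_top)⟩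
    · obtain ⟨y, h1, h2⟩ := exists_between (hx.resolve_left h)
      refine ⟨y, h1, (le_total y 0).imp_right fun h0 => ?_⟩
      exact (ENNReal.ofReal_lt_iff_lt_toReal h0 h).2 h2
  have h1 : ∀ᶠ M in atTop, y ≤ ∑ k ∈ tb n M, dg e (P369.negMulLogOp T) k := by
    rcases hy with h | h
    · exact Eventually.of_forall fun M =>
        h.trans (Finset.sum_nonneg fun k _ => P369V.g3_term_nonneg he hT k)
    · filter_upwards [(entropy_tendsto he hT).eventually (lt_mem_nhds h)] with M hM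
      by_contra hc
      exact absurd (ENNReal.ofReal_le_ofReal (not_le.1 hc).le) (not_le.2 hM)
  have h2 := (trace_tb hT).eventually (lt_mem_nhds (show 1 - (y - x) < 1 by linarith))
  obtain ⟨M, m1, m2⟩ := (h1.and h2).exists
  exact ⟨M, by unfold ps; linarith⟩

theorem linAll : LinAll n H K :=
  linAll_of_linFin (P369.FD.linFin_of_S_LIN P369Main.lin n)

/-- the linearised inequality without an energy bound, real form -/
theorem lin_real {η NA NB : ℝ} (h0 : 0 < η) (h1 : η < 1) (hNA : 0 < NA) (hNB : 0 < NB)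
    {e : Conf n → H} {f : Conf n → Conf n → K}
    (he : IsNumberBasis e) (hf : IsNumberBasis fun x : Conf n × Conf n => f x.1 x.2)
    {A B C : H →L[ℂ] H} (hA : IsState e A) (hB : IsState e B) (hO : IsOutput η e f A B C)
    {x y s : ℝ} (hx : ∃ M, x + 1 < ps e A M) (hy : ∃ M, y + 1 < ps e B M)
    (hs : ∀ M, ∑ k ∈ tb n M, dg e (P369.negMulLogOp C) k ≤ s) :
    n * (tmp (η * NA + (1 - η) * NB) * P369.g (η * NA + (1 - η) * NB) -
      η * (tmp NA * P369.g NA) - (1 - η) * (tmp NB * P369.g NB)) ≤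
    tmp (η * NA + (1 - η) * NB) * s - η * (tmp NA * x) - (1 - η) * (tmp NB * y) := by
  obtain ⟨q, hq⟩ : ∃ q : ℕ → ℝ, ∀ N, q N = 1 - 1 / ((N : ℝ) + 1) / 2 := ⟨_, fun _ => rfl⟩
  have hN : ∀ N : ℕ, 0 < 1 / ((N : ℝ) + 1) ∧ 1 / ((N : ℝ) + 1) ≤ 1 := fun N =>
    ⟨by positivity, (div_le_one (by positivity)).2 (by linarith [Nat.cast_nonneg (α := ℝ) N])⟩
  have q0 : ∀ N, 0 < q N := fun N => by rw [hq]; linarith [hN N]
  have q1 : ∀ N, q N < 1 := fun N => by rw [hq]; linarith [hN N]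
  have ql : Tendsto q atTop (𝓝 1) := by
    have h := (tendsto_one_div_add_atTop_nhds_zero_nat (𝕜 := ℝ)).div_const 2 |>.const_sub 1
    rw [zero_div, sub_zero] at h
    exact h.congr fun N => (hq N).symm
  choose A' sA eA mA using fun N => exists_damp he hA (q0 N) (q1 N)
  choose B' sB eB mB using fun N => exists_damp he hB (q0 N) (q1 N)
  have low : ∀ {T : H →L[ℂ] H} {T' : ℕ → H →L[ℂ] H} {z : ℝ}, IsState e T →
      (∀ N, IsState e (T' N)) → (∀ N, FiniteEnergy e (T' N)) →
      (∀ N k k', ⟪e k, T' N (e k')⟫_ℂ =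
        (((nrm e T (q N))⁻¹ * (q N ^ sz k * q N ^ sz k') : ℝ) : ℂ) * ⟪e k, T (e k')⟫_ℂ) →
      (∃ M, z + 1 < ps e T M) → ∀ᶠ N in atTop, z ≤ entropy e (T' N) := by
    rintro T T' z hT hT' eT' mT ⟨M, hM⟩
    have h := ((ql.pow M).pow 2).mul_const (ps e T M)
    rw [one_pow, one_pow, one_mul] at h
    filter_upwards [h.eventually (lt_mem_nhds hM)] with N hN'
    have := damp_lower he hT (q0 N) (q1 N) (hT' N) (eT' N) (mT N) M
    linarith
  obtain ⟨TC, hTC⟩ : ∃ T, T = tmp (η * NA + (1 - η) * NB) := ⟨_, rfl⟩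
  have hη : 0 < 1 - η := by linarith
  have TC0 : 0 < TC := hTC ▸ tmp_pos (by positivity)
  obtain ⟨κ, hκ⟩ : ∃ κ, κ = n * (TC * P369.g (η * NA + (1 - η) * NB) -
      η * (tmp NA * P369.g NA) - (1 - η) * (tmp NB * P369.g NB)) +
      η * (tmp NA * x) + (1 - η) * (tmp NB * y) := ⟨_, rfl⟩
  have key : ∀ᶠ N in atTop, nrm e A (q N) * nrm e B (q N) * (κ + TC) ≤ TC * (s + 1) := by
    filter_upwards [low hA sA eA mA hx, low hB sB eB mB hy] with N hxN hyN
    obtain ⟨⟨C', hO'⟩, hall⟩ := output_state h0.le h1.le he hf (sA N) (sB N) (eA N) (eB N)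
    obtain ⟨sC, eC⟩ := hall C' hO'
    have a0 := nrm_pos hA (q0 N) (q1 N).le
    have b0 := nrm_pos hB (q0 N) (q1 N).le
    have up : nrm e A (q N) * nrm e B (q N) * (entropy e C' + 1) ≤ s + 1 := by
      have t1 : Tendsto (fun M => ∑ k ∈ tb n M, dg e (P369.negMulLogOp C') k) atTop
          (𝓝 (entropy e C')) := (show Tendsto (fun s : Finset (Conf n) =>
            ∑ k ∈ s, dg e (P369.negMulLogOp C') k) atTop (𝓝 (entropy e C'))
          from (P369V.g3_summable he sC eC).hasSum).comp (tendsto_tb n)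
      refine le_of_tendsto' ((t1.add (trace_tb sC)).const_mul _) fun M => ?_
      have := damp_upper h0.le h1.le he hf hA hB (sA N) (sB N) hO hO' (q0 N).le (q1 N).le a0
        (nrm_le_one hA (q0 N).le (q1 N).le) b0 (nrm_le_one hB (q0 N).le (q1 N).le) (mA N) (mB N) M
      unfold ps at this
      linarith [hs M]
    have l := linAll (H := H) (K := K) e f he hf _ _ _ (sA N) (sB N) (eA N) (eB N) η NA NB h0 h1
      hNA hNB hO'
    rw [← hTC] at l
    have x1 := mul_le_mul_of_nonneg_left (mul_le_mul_of_nonneg_left hxN (tmp_pos hNA).le) h0.le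
    have y1 := mul_le_mul_of_nonneg_left (mul_le_mul_of_nonneg_left hyN (tmp_pos hNB).le) hη.le
    have z1 : κ + TC ≤ TC * (entropy e C' + 1) := by rw [hκ]; linarith
    have z2 := mul_le_mul_of_nonneg_left z1 (mul_pos a0 b0).le
    have z3 := mul_le_mul_of_nonneg_left up TC0.le
    nlinarith
  have lim := ((nrm_tendsto hA (fun N => (q0 N).le) (fun N => (q1 N).le) ql).mul
    (nrm_tendsto hB (fun N => (q0 N).le) (fun N => (q1 N).le) ql)).mul_const (κ + TC)
  have fin := le_of_tendsto lim key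
  rw [← hTC]
  rw [hκ] at fin
  linarith

/-- the linearised inequality for three entropies in `[0, ∞]` -/
def LinIneq (n : ℕ) (η NA NB : ℝ) (a b c : ℝ≥0∞) : Prop :=
  ENNReal.ofReal (n * (tmp (η * NA + (1 - η) * NB) * P369.g (η * NA + (1 - η) * NB))) +
    (ENNReal.ofReal (η * tmp NA) * a + ENNReal.ofReal ((1 - η) * tmp NB) * b) ≤
  ENNReal.ofReal (tmp (η * NA + (1 - η) * NB)) * c +
    ENNReal.ofReal (n * (η * (tmp NA * P369.g NA) + (1 - η) * (tmp NB * P369.g NB)))

theorem g_nonneg {x : ℝ} (hx : 0 ≤ x) : 0 ≤ P369.g x := P369L.g_bij.2.1 hx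

theorem linIneq_iff {η NA NB : ℝ} (h0 : 0 < η) (h1 : η < 1) (hNA : 0 < NA) (hNB : 0 < NB)
    {a b c : ℝ≥0∞} (ha : a ≠ ⊤) (hb : b ≠ ⊤) (hc : c ≠ ⊤) :
    LinIneq n η NA NB a b c ↔
    n * (tmp (η * NA + (1 - η) * NB) * P369.g (η * NA + (1 - η) * NB) -
      η * (tmp NA * P369.g NA) - (1 - η) * (tmp NB * P369.g NB)) ≤
    tmp (η * NA + (1 - η) * NB) * c.toReal - η * (tmp NA * a.toReal) -
      (1 - η) * (tmp NB * b.toReal) := by
  have hη : 0 < 1 - η := by linarith
  have hM : 0 < η * NA + (1 - η) * NB := by positivity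
  have t1 := tmp_pos hM
  have t2 := tmp_pos hNA
  have t3 := tmp_pos hNB
  have g1 := g_nonneg hM.le
  have g2 := g_nonneg hNA.le
  have g3 := g_nonneg hNB.le
  lift a to NNReal using ha
  lift b to NNReal using hb
  lift c to NNReal using hc
  unfold LinIneq
  rw [← ENNReal.ofReal_coe_nnreal (p := a), ← ENNReal.ofReal_coe_nnreal (p := b),
    ← ENNReal.ofReal_coe_nnreal (p := c), ← ENNReal.ofReal_mul (by positivity),
    ← ENNReal.ofReal_mul (by positivity), ← ENNReal.ofReal_mul (by positivity),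
    ← ENNReal.ofReal_add (by positivity) (by positivity),
    ← ENNReal.ofReal_add (by positivity) (by positivity),
    ← ENNReal.ofReal_add (by positivity) (by positivity),
    ENNReal.ofReal_le_ofReal_iff (by positivity), ENNReal.toReal_ofReal a.coe_nonneg,
    ENNReal.toReal_ofReal b.coe_nonneg, ENNReal.toReal_ofReal c.coe_nonneg]
  constructor <;> intro h <;> linarith

/-- the linearised inequality for all pairs of states -/
theorem lin_states {η NA NB : ℝ} (h0 : 0 < η) (h1 : η < 1) (hNA : 0 < NA) (hNB : 0 < NB)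
    {e : Conf n → H} {f : Conf n → Conf n → K}
    (he : IsNumberBasis e) (hf : IsNumberBasis fun x : Conf n × Conf n => f x.1 x.2)
    {A B C : H →L[ℂ] H} (hA : IsState e A) (hB : IsState e B) (hO : IsOutput η e f A B C) :
    LinIneq n η NA NB (P369L.entropy e A) (P369L.entropy e B) (P369L.entropy e C) := by
  have hη : 0 < 1 - η := by linarith
  have hM : 0 < η * NA + (1 - η) * NB := by positivity
  by_cases hc : P369L.entropy e C = ⊤
  · unfold LinIneq
    rw [hc, ENNReal.mul_top (ENNReal.ofReal_pos.2 (tmp_pos hM)).ne', top_add]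
    exact le_top
  have hC : IsState e C := by
    obtain ⟨w, -, -, C₁, -, hC, -, hu⟩ := output_all h0.le h1.le he hf hA hB
    exact hu C hO ▸ hC
  have main := fun x y hx hy => lin_real h0 h1 hNA hNB he hf hA hB hO (x := x) (y := y)
    (low_of_lt he hA hx) (low_of_lt he hB hy) (sum_le_entropy he hC hc)
  obtain ⟨κ, hκ⟩ : ∃ κ, κ = n * (tmp (η * NA + (1 - η) * NB) * P369.g (η * NA + (1 - η) * NB) -
      η * (tmp NA * P369.g NA) - (1 - η) * (tmp NB * P369.g NB)) := ⟨_, rfl⟩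
  obtain ⟨s, hs⟩ : ∃ s, s = tmp (η * NA + (1 - η) * NB) * (P369L.entropy e C).toReal := ⟨_, rfl⟩
  rw [← hκ, ← hs] at main
  have ca : 0 < η * tmp NA := mul_pos h0 (tmp_pos hNA)
  have cb : 0 < (1 - η) * tmp NB := mul_pos hη (tmp_pos hNB)
  have neg : ∀ u : ℝ≥0∞, u = ⊤ ∨ -1 < u.toReal := fun u =>
    Or.inr (lt_of_lt_of_le (by norm_num) ENNReal.toReal_nonneg)
  have ha : P369L.entropy e A ≠ ⊤ := fun h => by
    have h2 := main ((s - κ + (1 - η) * tmp NB + 1) / (η * tmp NA)) (-1) (Or.inl h) (neg _)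
    have h3 := mul_div_cancel₀ (s - κ + (1 - η) * tmp NB + 1) ca.ne'
    nlinarith
  have hb : P369L.entropy e B ≠ ⊤ := fun h => by
    have h2 := main (-1) ((s - κ + η * tmp NA + 1) / ((1 - η) * tmp NB)) (neg _) (Or.inl h)
    have h3 := mul_div_cancel₀ (s - κ + η * tmp NA + 1) cb.ne'
    nlinarith
  rw [linIneq_iff h0 h1 hNA hNB ha hb hc, ← hκ, ← hs]
  refine le_of_forall_pos_le_add fun ε hε => ?_
  have hd : 0 < ε / (η * tmp NA + (1 - η) * tmp NB) := by positivity
  have h2 := main ((P369L.entropy e A).toReal - ε / (η * tmp NA + (1 - η) * tmp NB))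
    ((P369L.entropy e B).toReal - ε / (η * tmp NA + (1 - η) * tmp NB))
    (Or.inr (by linarith)) (Or.inr (by linarith))
  have h3 := mul_div_cancel₀ ε (add_pos ca cb).ne'
  nlinarith

/-- averaging the linearised inequality -/
theorem linIneq_integral {Ω : Type*} [MeasurableSpace Ω] (μ : Measure Ω) [IsProbabilityMeasure μ]
    {η NA NB : ℝ} {a b c : Ω → ℝ≥0∞} (h : ∀ x, LinIneq n η NA NB (a x) (b x) (c x)) :
    LinIneq n η NA NB (∫⁻ x, a x ∂μ) (∫⁻ x, b x ∂μ) (∫⁻ x, c x ∂μ) := by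
  have h1 := lintegral_mono (μ := μ) h
  unfold LinIneq
  rw [lintegral_add_left measurable_const, lintegral_add_right _ measurable_const,
    lintegral_const, lintegral_const, measure_univ, mul_one, mul_one,
    lintegral_const_mul' _ _ ENNReal.ofReal_ne_top] at h1
  refine le_trans ?_ h1
  rw [← lintegral_const_mul' _ _ ENNReal.ofReal_ne_top,
    ← lintegral_const_mul' _ _ ENNReal.ofReal_ne_top]
  gcongr
  exact le_lintegral_add _ _

/-- from the linearised inequalities to the photon numbers -/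
theorem photons_of_lin (hn : 1 ≤ n) {η : ℝ} (h0 : 0 < η) (h1 : η < 1) {a b c : ℝ≥0∞}
    (h : ∀ NA NB, 0 < NA → 0 < NB → LinIneq n η NA NB a b c) :
    ENNReal.ofReal η * photons n a + ENNReal.ofReal (1 - η) * photons n b ≤ photons n c := by
  have hη : 0 < 1 - η := by linarith
  by_cases hc : c = ⊤
  · unfold photons
    rw [if_pos hc]
    exact le_top
  have h2 := h 1 1 one_pos one_pos
  have fin : ENNReal.ofReal (η * tmp 1) * a + ENNReal.ofReal ((1 - η) * tmp 1) * b ≠ ⊤ :=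
    ne_top_of_le_ne_top (ENNReal.add_ne_top.2
      ⟨ENNReal.mul_ne_top ENNReal.ofReal_ne_top hc, ENNReal.ofReal_ne_top⟩) (le_add_self.trans h2)
  have ha : a ≠ ⊤ := fun h => (ENNReal.add_ne_top.1 fin).1 (by
    rw [h, ENNReal.mul_top (ENNReal.ofReal_pos.2 (mul_pos h0 (tmp_pos one_pos))).ne'])
  have hb : b ≠ ⊤ := fun h => (ENNReal.add_ne_top.1 fin).2 (by
    rw [h, ENNReal.mul_top (ENNReal.ofReal_pos.2 (mul_pos hη (tmp_pos one_pos))).ne'])
  have hn0 : (0 : ℝ) < n := by exact_mod_cast hn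
  have sp : ∀ u : ℝ≥0∞, 0 ≤ Function.invFunOn P369L.g (Set.Ici 0) (u.toReal / n) ∧
      P369.g (Function.invFunOn P369L.g (Set.Ici 0) (u.toReal / n)) = u.toReal / n := fun u =>
    P369.invFunOn_g (div_nonneg ENNReal.toReal_nonneg hn0.le)
  unfold photons
  rw [if_neg ha, if_neg hb, if_neg hc]
  obtain ⟨hNA, hgA⟩ := sp a
  obtain ⟨hNB, hgB⟩ := sp b
  obtain ⟨hNC, hgC⟩ := sp c
  generalize Function.invFunOn P369L.g (Set.Ici 0) (a.toReal / n) = NA at hNA hgA ⊢
  generalize Function.invFunOn P369L.g (Set.Ici 0) (b.toReal / n) = NB at hNB hgB ⊢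
  generalize Function.invFunOn P369L.g (Set.Ici 0) (c.toReal / n) = NC at hNC hgC ⊢
  rw [← ENNReal.ofReal_mul h0.le, ← ENNReal.ofReal_mul hη.le,
    ← ENNReal.ofReal_add (by positivity) (by positivity)]
  apply ENNReal.ofReal_le_ofReal
  have hM0 : 0 ≤ η * NA + (1 - η) * NB := by positivity
  rcases hM0.eq_or_lt with hz | hM
  · rw [← hz]; exact hNC
  rw [← P369.g_le_iff hM0 hNC, hgC, le_div_iff₀ hn0, mul_comm]
  refine lin_to_g h0 h1 hNA hNB hM hn fun δ hδ => ?_
  have h3 := (linIneq_iff h0 h1 (by linarith) (by linarith) ha hb hc).1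
    (h (NA + δ) (NB + δ) (by linarith) (by linarith))
  have e1 : a.toReal = n * P369.g NA := by rw [hgA]; field_simp
  have e2 : b.toReal = n * P369.g NB := by rw [hgB]; field_simp
  rw [← e1, ← e2]
  exact h3

/-- the inequality for ensembles, in terms of matrix elements -/
theorem ensemble_sys (hn : 1 ≤ n) {η : ℝ} (h0 : 0 ≤ η) (h1 : η ≤ 1)
    {e : Conf n → H} {f : Conf n → Conf n → K}
    (he : IsNumberBasis e) (hf : IsNumberBasis fun x : Conf n × Conf n => f x.1 x.2)
    {Ω : Type*} [MeasurableSpace Ω] (μ : Measure Ω) [IsProbabilityMeasure μ]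
    {A B C : Ω → H →L[ℂ] H} (hA : ∀ x, IsState e (A x)) (hB : ∀ x, IsState e (B x))
    (hO : ∀ x, IsOutput η e f (A x) (B x) (C x)) :
    ENNReal.ofReal η * photons n (∫⁻ x, P369L.entropy e (A x) ∂μ) +
      ENNReal.ofReal (1 - η) * photons n (∫⁻ x, P369L.entropy e (B x) ∂μ) ≤
      photons n (∫⁻ x, P369L.entropy e (C x) ∂μ) := by
  rcases h0.eq_or_lt with h | h0'
  · subst h
    have e1 : C = B := funext fun x => by
      have hO' := P369N.isOutput_swap hf (hO x)
      rw [sub_zero] at hO'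
      exact output_one he hf (hA x) hO'
    rw [e1]
    simp
  rcases h1.eq_or_lt with h | h1'
  · subst h
    have e1 : C = A := funext fun x => output_one he hf (hB x) (hO x)
    rw [e1]
    simp
  exact photons_of_lin hn h0' h1' fun NA NB hNA hNB => linIneq_integral μ fun x =>
    lin_states h0' h1' hNA hNB he hf (hA x) (hB x) (hO x)

/-! ### the literal definitions -/

section literal

variable {e : (Fin n → ℕ) → H} {f : (Fin (n + n) → ℕ) → K}

theorem out_to (he : IsNumberBasis e) (hf : IsNumberBasis f) {η : ℝ} {A B C : H →L[ℂ] H}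
    (h : Out e f η A B C) : IsOutput η e (P369L.ket2 f) A B C := by
  obtain ⟨U, σ, hU, hσ, hP⟩ := h
  refine ⟨U, σ, (P369L.bs_iff hf).1 hU, (P369L.product_iff he hf).1 hσ, fun m m' => ?_⟩
  have h2 := hP (e m) (e m')
  simp only [P369L.tmul_ket he hf, P369L.evolve_apply] at h2
  exact h2

theorem out_from (he : IsNumberBasis e) (hf : IsNumberBasis f) {η : ℝ} {A B C : H →L[ℂ] H}
    (hA : A.IsPositive) (hB : B.IsPositive) (h : IsOutput η e (P369L.ket2 f) A B C) :
    Out e f η A B C := by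
  obtain ⟨U, σ, hU, hσ, hP⟩ := h
  have hf2 := P369L.nb_ket2 hf
  refine ⟨U, σ, (P369L.bs_iff hf).2 hU, (P369L.product_iff he hf).2 hσ, ?_⟩
  refine ptr_all he hf2 (P369L.isTens he hf)
    (P369L.evolve_pos U (isProduct_isPositive he hf2 hA hB hσ)) he he he fun k k' => ?_
  simp only [P369L.tmul_ket he hf, P369L.evolve_apply]
  exact hP k k'

theorem out_spec (he : IsNumberBasis e) (hf : IsNumberBasis f) {η : ℝ} (h0 : 0 ≤ η) (h1 : η ≤ 1)
    {A B : H →L[ℂ] H} (hA : P369L.IsState e A) (hB : P369L.IsState e B) :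
    (∃! C, Out e f η A B C) ∧ ∀ C, Out e f η A B C → P369L.IsState e C := by
  obtain ⟨w, -, -, C, hO, hC, -, hu⟩ := output_all h0 h1 he (P369L.nb_ket2 hf)
    (P369L.state_iff.1 hA) (P369L.state_iff.1 hB)
  refine ⟨⟨C, out_from he hf hA.1 hB.1 hO, fun C' h => hu C' (out_to he hf h)⟩, fun C' h => ?_⟩
  rw [hu C' (out_to he hf h)]
  exact P369L.state_iff.2 hC

theorem ensemble (he : IsNumberBasis e) (hf : IsNumberBasis f) (hn : 1 ≤ n) {η : ℝ} (h0 : 0 ≤ η)
    (h1 : η ≤ 1) {Ω : Type*} [MeasurableSpace Ω] (μ : Measure Ω) [IsProbabilityMeasure μ]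
    {A B C : Ω → H →L[ℂ] H} (h : ∀ x, P369L.IsState e (A x) ∧ P369L.IsState e (B x) ∧
      Out e f η (A x) (B x) (C x)) :
    ENNReal.ofReal η * photons n (∫⁻ x, P369L.entropy e (A x) ∂μ) +
      ENNReal.ofReal (1 - η) * photons n (∫⁻ x, P369L.entropy e (B x) ∂μ) ≤
      photons n (∫⁻ x, P369L.entropy e (C x) ∂μ) :=
  ensemble_sys hn h0 h1 he (P369L.nb_ket2 hf) μ (fun x => P369L.state_iff.1 (h x).1)
    (fun x => P369L.state_iff.1 (h x).2.1) fun x => out_to he hf (h x).2.2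

theorem all_states (he : IsNumberBasis e) (hf : IsNumberBasis f) (hn : 1 ≤ n) {η : ℝ}
    (h0 : 0 ≤ η) (h1 : η ≤ 1) {A B C : H →L[ℂ] H} (hA : P369L.IsState e A)
    (hB : P369L.IsState e B) (h : Out e f η A B C) :
    ENNReal.ofReal η * photons n (P369L.entropy e A) +
      ENNReal.ofReal (1 - η) * photons n (P369L.entropy e B) ≤ photons n (P369L.entropy e C) := by
  have h2 := ensemble he hf hn h0 h1 (Measure.dirac ()) (A := fun _ => A) (B := fun _ => B)
    (C := fun _ => C) fun _ => ⟨hA, hB, h⟩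
  simpa only [lintegral_const, measure_univ, mul_one] using h2

theorem finite_energy (he : IsNumberBasis e) (hf : IsNumberBasis f) (hn : 1 ≤ n) {η : ℝ}
    (h0 : 0 ≤ η) (h1 : η ≤ 1) {A B C : H →L[ℂ] H} (hA : P369L.IsState e A)
    (hB : P369L.IsState e B) (eA : P369L.meanPhoton e A ≠ ⊤) (eB : P369L.meanPhoton e B ≠ ⊤)
    (h : Out e f η A B C) :
    P369L.IsState e C ∧ P369L.entropy e A ≠ ⊤ ∧ P369L.entropy e B ≠ ⊤ ∧ P369L.entropy e C ≠ ⊤ ∧
      η * P369L.photonNumber e A + (1 - η) * P369L.photonNumber e B ≤ P369L.photonNumber e C := by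
  obtain ⟨U, σ, hU, hσ, hP⟩ := h
  obtain ⟨s1, s2, s3⟩ := ((P369L.main he hf hn h0 h1 hU hA hB eA eB).2 σ hσ).2 C hP
  exact ⟨s1, (P369L.entropy_spec he hA eA).2.1, (P369L.entropy_spec he hB eB).2.1,
    (P369L.entropy_spec he s1 s2).2.1, s3⟩

end literal

end

end Vale.Agent.N369
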