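import Vale.Agent.P369.Bd3.B1

/-!
P369 (helper48): comparison of entropies under spectral domination.
If `t Y ≤ Γ C Γ` on finitely many number states, with a diagonal contraction `Γ`, then
`t (Tr η(Y) + Tr Y) ≤ Tr η(C) + 1` on these number states (`η(x) = -x log x`).
-/

namespace Vale.Agent.N369

open scoped InnerProductSpace ComplexOrder
open Matrix
open Vale.Agent.P369V

noncomputable section

/-- `x - x log x` is increasing on `[0, 1]` -/
theorem eta_add_mono {x y : ℝ} (hx : 0 ≤ x) (hxy : x ≤ y) (hy : y ≤ 1) :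
    Real.negMulLog x + x ≤ Real.negMulLog y + y := by
  rcases hx.eq_or_lt with h | h
  · rw [← h, Real.negMulLog_zero]
    have := Real.negMulLog_nonneg (h ▸ hxy) hy
    linarith
  have hy0 : 0 < y := lt_of_lt_of_le h hxy
  have h1 := Real.log_le_sub_one_of_pos (div_pos hy0 h)
  rw [Real.log_div hy0.ne' h.ne'] at h1
  have h2 : x * (Real.log y - Real.log x) ≤ x * (y / x - 1) := mul_le_mul_of_nonneg_left h1 h.le
  have h3 : x * (y / x - 1) = y - x := by field_simp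
  have h4 : Real.log y ≤ 0 := Real.log_nonpos hy0.le hy
  have h5 : (y - x) * Real.log y ≤ 0 := mul_nonpos_of_nonneg_of_nonpos (by linarith) h4
  have h6 := Real.log_le_sub_one_of_pos (div_pos h hy0)
  rw [Real.log_div h.ne' hy0.ne'] at h6
  unfold Real.negMulLog
  nlinarith

theorem eta_scale {t c y : ℝ} (ht0 : 0 ≤ t) (ht1 : t ≤ 1) (hc : 0 ≤ c) (h : t * c ≤ y)
    (hy : y ≤ 1) : t * (Real.negMulLog c + c) ≤ Real.negMulLog y + y := by
  have h1 := eta_add_mono (mul_nonneg ht0 hc) h hy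
  rw [Real.negMulLog_mul] at h1
  have h2 : 0 ≤ c * Real.negMulLog t := mul_nonneg hc (Real.negMulLog_nonneg ht0 ht1)
  nlinarith

variable {H : Type} [NormedAddCommGroup H] [InnerProductSpace ℂ H] [CompleteSpace H]

/-- comparison on a finite orthonormal family -/
theorem ent_compare {ι κ : Type} [Fintype κ] [DecidableEq κ] {b : ι → H} (hb : Orthonormal ℂ b)
    (hd : Dense (Submodule.span ℂ (Set.range b) : Set H)) {C : H →L[ℂ] H} (hC : 0 ≤ C)
    (htr : HasSum (fun k => (⟪b k, C (b k)⟫_ℂ).re) 1)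
    {e : κ → H} (he : Orthonormal ℂ e) (e' : κ → H) {Y : H →L[ℂ] H} (hY : 0 ≤ Y)
    {t : ℝ} (ht0 : 0 ≤ t) (ht1 : t ≤ 1)
    (hdom : ∀ c : κ → ℂ, t * (⟪∑ i, c i • e i, Y (∑ i, c i • e i)⟫_ℂ).re ≤
      (⟪∑ i, c i • e' i, C (∑ i, c i • e' i)⟫_ℂ).re)
    (h1 : ∑ i, (⟪e' i, C (e' i)⟫_ℂ).re ≤ 1) :
    t * (∑ i, (⟪e i, cfc Real.negMulLog Y (e i)⟫_ℂ).re + ∑ i, (⟪e i, Y (e i)⟫_ℂ).re) ≤
      ∑ i, (⟪e' i, cfc Real.negMulLog C (e' i)⟫_ℂ).re + 1 := by
  have hsa : IsSelfAdjoint C := IsSelfAdjoint.of_nonneg hC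
  have hA := ga_herm e' hsa
  have hT := ga_T2 hb hd hC htr le_rfl e'
  rw [ga_ent_eq hA] at hT
  obtain ⟨U, hU⟩ : ∃ U : Matrix κ κ ℂ, U = (hA.eigenvectorUnitary : Matrix κ κ ℂ) := ⟨_, rfl⟩
  have hU1 : U * Uᴴ = 1 := by
    rw [hU, ← Matrix.star_eq_conjTranspose]; exact Unitary.coe_mul_star_self _
  have hU2 : Uᴴ * U = 1 := by
    rw [hU, ← Matrix.star_eq_conjTranspose]; exact Unitary.coe_star_mul_self _
  have hl : ∀ a, (⟪gaV e' U a, C (gaV e' U a)⟫_ℂ).re = hA.eigenvalues a := by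
    intro a
    have h4 := ga_eig e' hsa a a
    rw [if_pos rfl] at h4
    rw [hU, h4, Complex.ofReal_re]
  have hl0 : ∀ a, 0 ≤ hA.eigenvalues a := fun a => by
    rw [← hl]
    exact ((ContinuousLinearMap.nonneg_iff_isPositive C).1 hC).re_inner_nonneg_right _
  have hsum : ∑ a, hA.eigenvalues a = ∑ i, (⟪e' i, C (e' i)⟫_ℂ).re := by
    have h2 := congrArg Complex.re (ga_sum e' hU1 C)
    rw [Complex.re_sum, Complex.re_sum] at h2
    rw [← h2]
    exact Finset.sum_congr rfl fun a _ => (hl a).symm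
  have htr' : (gaC e' C).trace.re = ∑ a, hA.eigenvalues a := by
    rw [hsum, Matrix.trace, Complex.re_sum]
    rfl
  have hl1 : ∀ a, hA.eigenvalues a ≤ 1 := fun a =>
    (Finset.single_le_sum (f := hA.eigenvalues) (fun a _ => hl0 a) (Finset.mem_univ a)).trans
      (hsum ▸ h1)
  have h2 := congrArg Complex.re (ga_sum e hU1 (cfc Real.negMulLog Y))
  have h3 := congrArg Complex.re (ga_sum e hU1 Y)
  rw [Complex.re_sum, Complex.re_sum] at h2 h3
  have key : ∀ a, t * ((⟪gaV e U a, cfc Real.negMulLog Y (gaV e U a)⟫_ℂ).re +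
      (⟪gaV e U a, Y (gaV e U a)⟫_ℂ).re) ≤
      Real.negMulLog (hA.eigenvalues a) + hA.eigenvalues a := by
    intro a
    have j := ga_jensen hY (ga_norm he hU2 a)
    have c0 : 0 ≤ (⟪gaV e U a, Y (gaV e U a)⟫_ℂ).re :=
      ((ContinuousLinearMap.nonneg_iff_isPositive Y).1 hY).re_inner_nonneg_right _
    have d := hdom fun i => U i a
    have d' : t * (⟪gaV e U a, Y (gaV e U a)⟫_ℂ).re ≤ hA.eigenvalues a := by
      rw [← hl]
      exact d
    refine le_trans ?_ (eta_scale ht0 ht1 c0 d' (hl1 a))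
    exact mul_le_mul_of_nonneg_left (by linarith) ht0
  have h5 := Finset.sum_le_sum fun a (_ : a ∈ Finset.univ) => key a
  rw [← Finset.mul_sum, Finset.sum_add_distrib, Finset.sum_add_distrib, h2, h3] at h5
  rw [htr'] at hT
  linarith

end

end Vale.Agent.N369
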