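import Vale.Agent.N369.Lin

/-!
# P369: the entropy photon-number inequality, for all states and for ensembles
-/

namespace Vale.Agent.N369.OldAllStates

open scoped ENNReal
open MeasureTheory Vale.Agent.P369L Vale.Agent.N369

/-- `e`, `f` are the number states of `n` and of `2n` modes.
(1) The entropy photon-number inequality for all states, with no bound on the mean photon number,
in `[0, ∞]`.
(2) The conditional form: inputs that are independent given a classical random variable. -/
theorem old (n : ℕ) (hn : 1 ≤ n) {H K : Type}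
    [NormedAddCommGroup H] [InnerProductSpace ℂ H] [CompleteSpace H]
    [NormedAddCommGroup K] [InnerProductSpace ℂ K] [CompleteSpace K]
    (e : HilbertBasis (Fin n → ℕ) ℂ H) (f : HilbertBasis (Fin (n + n) → ℕ) ℂ K)
    (η : ℝ) (h0 : 0 ≤ η) (h1 : η ≤ 1) :
    (∀ ρA ρB : H →L[ℂ] H, IsState e ρA → IsState e ρB →
      (∃! ρC, Out e f η ρA ρB ρC) ∧ ∀ ρC, Out e f η ρA ρB ρC → IsState e ρC ∧
        ENNReal.ofReal η * photons n (entropy e ρA) +
          ENNReal.ofReal (1 - η) * photons n (entropy e ρB) ≤ photons n (entropy e ρC)) ∧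
    ∀ (Ω : Type) [MeasurableSpace Ω] (μ : Measure Ω) [IsProbabilityMeasure μ]
      (ρA ρB ρC : Ω → H →L[ℂ] H),
      (∀ x, IsState e (ρA x) ∧ IsState e (ρB x) ∧ Out e f η (ρA x) (ρB x) (ρC x)) →
      ENNReal.ofReal η * photons n (∫⁻ x, entropy e (ρA x) ∂μ) +
        ENNReal.ofReal (1 - η) * photons n (∫⁻ x, entropy e (ρB x) ∂μ) ≤
        photons n (∫⁻ x, entropy e (ρC x) ∂μ) := by
  have he := nb_of_hilbertBasis e
  have hf := nb_of_hilbertBasis f
  exact ⟨fun _ _ hA hB => ⟨(out_spec he hf h0 h1 hA hB).1,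
      fun C h => ⟨(out_spec he hf h0 h1 hA hB).2 C h, all_states he hf hn h0 h1 hA hB h⟩⟩,
    fun _ _ μ _ _ _ _ h => ensemble he hf hn h0 h1 μ h⟩

end Vale.Agent.N369.OldAllStates
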